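import Vale.Agent.P113.Final

open Set
open scoped ContDiff

namespace Vale.Agent.Results.P113.Compiler

open Vale.Agent.P113

/-- A point `a`, an open set `O` of the torus, times `T₀`, `P` and a computable map `pos`, all
independent of `ν`, `M` and `w`, and for every computable viscosity `ν > 0` a force compiler `comp`
such that for all machines `M` and inputs `w` the compiled force `f M w` is smooth, effective,
periodic in time with period `P` and independent of the input for `t ≥ T₀`; the forced
Navier-Stokes system started from rest has a global smooth solution, unique among classical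
solutions on each `[0,T]`; the trajectory of `a` exists, is at the rational point `pos (M, w)` at
time `T₀` and meets `O` exactly if `M` halts on `w`. -/
theorem result :
    ∃ (a : V) (O : Set V) (T₀ P : ℝ) (pos : Machine.Code × List ℕ → RatCode × RatCode),
      IsOpen O ∧ (∀ x k, x + Pi.single k 1 ∈ O ↔ x ∈ O) ∧ 0 ≤ T₀ ∧ 0 < P ∧ Computable pos ∧
    ∀ ν : ℝ, 0 < ν → ComputableReal ν →
    ∃ (comp : Machine.Code × List ℕ → Nat.Partrec.Code)
      (f : (M : Machine) → List (Fin (M.numSymbols + 1)) → ℝ → V → V),
      Computable comp ∧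
      ∀ (M : Machine) (w : List (Fin (M.numSymbols + 1))),
        Computes (comp (M.code, w.map Fin.val)) (f M w) ∧
        ContDiff ℝ ∞ (fun q : ℝ × V => f M w q.1 q.2) ∧ (∀ t, Periodic3 (f M w t)) ∧
        (∀ t, T₀ ≤ t → ∀ x, f M w (t + P) x = f M w t x) ∧
        (∀ t, T₀ ≤ t → ∀ w' x, f M w t x = f M w' t x) ∧
        ∃ (u : ℝ → V → V) (p : ℝ → V → ℝ),
          ContDiff ℝ ∞ (fun q : ℝ × V => u q.1 q.2) ∧ ContDiff ℝ ∞ (fun q : ℝ × V => p q.1 q.2) ∧
          (∀ T, 0 < T → IsClassicalSolution ν (f M w) T u p ∧
            ∀ u' p', IsClassicalSolution ν (f M w) T u' p' →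
              ∀ t ∈ Icc 0 T, u' t = u t ∧ p' t = p t) ∧
          (∃ X, IsTrajectory u a X) ∧
          ∀ X, IsTrajectory u a X →
            ((∃ t, 0 ≤ t ∧ X t ∈ O) ↔ M.HaltsOn w) ∧
            X T₀ = ![(pos (M.code, w.map Fin.val)).1.val, (pos (M.code, w.map Fin.val)).2.val, 0] :=
  main

end Vale.Agent.Results.P113.Compiler
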